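import Mathlib
import Vale.Agent.P322.Cells

namespace Vale.Agent.Results.P322.OddCells

open Finset

/-- Binary entropy in bits. -/
noncomputable def h2 (p : ℝ) : ℝ := -p * Real.logb 2 p - (1 - p) * Real.logb 2 (1 - p)

/-- Mutual information in bits of a pair with joint probability mass function `p`. -/
noncomputable def mutualInfo {α β : Type} [Fintype α] [Fintype β] (p : α → β → ℝ) : ℝ :=
  ∑ a, ∑ b, p a b * Real.logb 2 (p a b / ((∑ b', p a b') * ∑ a', p a' b))

/-- `Pr (f X = b, Y = y)` for `X` uniform on the sign cube, `Y = X Z` coordinatewise, and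
independent signs `Z i` equal to `-1` with probability `ε`. -/
noncomputable def jointLaw {n : ℕ} (f : (Fin n → ℤˣ) → ℤˣ) (ε : ℝ) (b : ℤˣ) (y : Fin n → ℤˣ) : ℝ :=
  ∑ x : Fin n → ℤˣ, ∑ z : Fin n → ℤˣ,
    if f x = b ∧ x * z = y then 1 / 2 ^ n * ∏ i, (if z i = -1 then ε else 1 - ε) else 0

open Vale.Agent.P322

theorem h2_eq (p : ℝ) : h2 p = Real.binEntropy p / Real.log 2 := by
  simp only [h2, Real.logb, Real.binEntropy, Real.log_inv]
  ring

theorem joint_eq {n : ℕ} (f : (Fin n → ℤˣ) → ℤˣ) (ε : ℝ) (b : ℤˣ) (y : Fin n → ℤˣ) :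
    jointLaw f ε b y = (∑ x ∈ univ.filter (fun x => f x = b), ker (fun _ => ε) x y) / 2 ^ n := by
  rw [jointLaw, sum_filter, sum_div]
  refine sum_congr rfl fun x _ => ?_
  rw [sum_eq_single (x * y) (fun z _ hz => if_neg fun h => hz ?_) (by simp)]
  · have : x * (x * y) = y := by
      funext i
      simp [← mul_assoc]
    simp only [this, and_true]
    split_ifs
    · rw [ker, mul_comm, mul_one_div]
      congr 1
      refine prod_congr rfl fun i _ => ?_
      rcases Int.units_eq_one_or (y i) with h | h <;>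
        rcases Int.units_eq_one_or (x i) with h' | h' <;> simp [h, h', one_ne_neg.symm]
    · simp
  · funext i
    rw [← h.2]
    simp [← mul_assoc]

theorem term_eq {N u m : ℝ} (hN : 0 < N) (hu : 0 ≤ u) (hm : u / N ≤ m) :
    u / N * Real.logb 2 (u / N / (m * (1 / N))) =
      (u * Real.logb 2 u) / N - u / N * Real.logb 2 m := by
  rcases hu.eq_or_lt with rfl | hu
  · simp
  · have hm0 : 0 < m := lt_of_lt_of_le (by positivity) hm
    have : u / N / (m * (1 / N)) = u / m := by field_simp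
    rw [this, Real.logb_div hu.ne' hm0.ne']
    ring

theorem result (n : ℕ) (f : (Fin n → ℤˣ) → ℤˣ) (τ : (Fin n → ℤˣ) → Fin n → ℤˣ)
    (hτ : ∀ x x', (∀ i, τ x i = 1 → x' i = x i) → τ x' = τ x) (hf : ∀ x, f (τ x * x) = -f x)
    (ε : ℝ) (h0 : 0 ≤ ε) (h1 : ε ≤ 1 / 2) : mutualInfo (jointLaw f ε) ≤ 1 - h2 ε := by
  have h1' : ε ≤ 1 := by linarith
  set u : (Fin n → ℤˣ) → ℝ := fun y => ∑ x ∈ univ.filter (fun x => f x = 1), ker (fun _ => ε) x y
    with hu
  have hk : ∀ x y : Fin n → ℤˣ, 0 ≤ ker (fun _ => ε) x y :=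
    ker_nonneg (fun _ => h0) fun _ => h1'
  have hp : ∀ y, jointLaw f ε 1 y = u y / 2 ^ n := fun y => joint_eq f ε 1 y
  have hq : ∀ y, jointLaw f ε (-1) y = (1 - u y) / 2 ^ n := fun y => by
    rw [joint_eq, ← ker_sum (fun _ => ε) y, ← sum_filter_add_sum_filter_not univ fun x => f x = 1,
      add_sub_cancel_left]
    congr 2
    ext x
    rcases Int.units_eq_one_or (f x) with h | h <;> simp [h, one_ne_neg.symm]
  have hu0 : ∀ y, 0 ≤ u y := fun y => sum_nonneg fun x _ => hk x y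
  have hu1 : ∀ y, u y ≤ 1 := fun y => by
    rw [← ker_sum (fun _ => ε) y]
    exact sum_le_univ_sum_of_nonneg fun x => hk x y
  have hN : (0 : ℝ) < 2 ^ n := by positivity
  have hcard : (Fintype.card (Fin n → ℤˣ) : ℝ) = 2 ^ n := by simp
  have hb := ent_bound u hu0 hu1 h0 h1' (by
    have := cells hτ hf h0 h1' u fun y => rfl
    rwa [Fintype.card_fin, ← hcard] at this)
  rw [hcard] at hb
  set m := ∑ y, u y / 2 ^ n with hm
  have hm' : ∑ y, (1 - u y) / 2 ^ n = 1 - m := by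
    simp only [sub_div, sum_sub_distrib, ← hm, sum_const, card_univ, nsmul_eq_mul, hcard]
    rw [mul_one_div_cancel hN.ne']
  have hy : ∀ y, u y / 2 ^ n + (1 - u y) / 2 ^ n = 1 / 2 ^ n := fun y => by ring
  have t1 : ∀ y, u y / 2 ^ n ≤ m := fun y =>
    single_le_sum (f := fun y => u y / 2 ^ n) (fun y _ => div_nonneg (hu0 y) hN.le) (mem_univ y)
  have t2 : ∀ y, (1 - u y) / 2 ^ n ≤ 1 - m := fun y => hm' ▸
    single_le_sum (f := fun y => (1 - u y) / 2 ^ n)
      (fun y _ => div_nonneg (sub_nonneg.2 (hu1 y)) hN.le) (mem_univ y)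
  simp only [mutualInfo, sum_units, hp, hq, ← hm, hm', hy, term_eq hN (hu0 _) (t1 _),
    term_eq hN (sub_nonneg.2 (hu1 _)) (t2 _), sum_sub_distrib, ← sum_mul]
  have hl : 0 < Real.log 2 := Real.log_pos one_lt_two
  have e1 : h2 m ≤ 1 := by
    rw [h2_eq, div_le_one hl]
    exact Real.binEntropy_le_log_two
  have e2 : h2 ε ≤ ∑ y, h2 (u y) / 2 ^ n := by
    simp only [h2_eq]
    rw [← sum_div, ← sum_div, le_div_iff₀ hN, div_mul_eq_mul_div]
    exact div_le_div_of_nonneg_right hb hl.le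
  have e3 : ∑ y, h2 (u y) / 2 ^ n = -(∑ y, u y * Real.logb 2 (u y) / 2 ^ n) -
      ∑ y, (1 - u y) * Real.logb 2 (1 - u y) / 2 ^ n := by
    rw [← sum_neg_distrib, ← sum_sub_distrib]
    exact sum_congr rfl fun y _ => by rw [h2]; ring
  rw [h2] at e1
  linarith

end Vale.Agent.Results.P322.OddCells
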